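import Mathlib
import Vale.Agent.H4.P013.OneSmallPrime

/-!
# P013: Jacobsthal's function when only the least prime factor is small, with the bound of Q1

Hand-in (a second statement for the result of `A_OneSmallPrime`). `jacobsthal n` (defined in
`Vale/Agent/H4/P013/Defs.lean`) is the least positive `m` such that every `m` consecutive
integers contain one coprime to `n`. Let `k = ω(n)` be the number of distinct prime factors of
`n ≥ 2`, `q` its least prime factor, `B = k + ⌈k/(q-1)⌉`.
(A) The statement of `A_OneSmallPrime`, word for word: (1) `jacobsthal n ≥ B` for every `n ≥ 2`;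
(2) if every prime factor of `n` other than `q` is at least `B`, then `jacobsthal n = B`, and in
particular `jacobsthal n ≤ 2 ω(n)`.
(B) Its corollary in the form of the question `h(k) ≤ C k²`: there is a constant `C > 0` with
`jacobsthal n ≤ C ω(n)²` for every `n ≥ 2` in the class of (2).
-/

namespace Vale.Agent.Results.P013.A0_OneSmallPrimeQuadraticForm

open Vale.Agent.H4.P013

theorem result :
    (∀ n : ℕ, 2 ≤ n →
      n.primeFactors.card + ⌈(n.primeFactors.card : ℝ) / ((n.minFac : ℝ) - 1)⌉₊ ≤ jacobsthal n ∧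
      ((∀ p ∈ n.primeFactors, p ≠ n.minFac →
          n.primeFactors.card + ⌈(n.primeFactors.card : ℝ) / ((n.minFac : ℝ) - 1)⌉₊ ≤ p) →
        jacobsthal n
            = n.primeFactors.card + ⌈(n.primeFactors.card : ℝ) / ((n.minFac : ℝ) - 1)⌉₊ ∧
          jacobsthal n ≤ 2 * n.primeFactors.card)) ∧
    (∃ C : ℝ, 0 < C ∧ ∀ n : ℕ, 2 ≤ n →
      (∀ p ∈ n.primeFactors, p ≠ n.minFac →
          n.primeFactors.card + ⌈(n.primeFactors.card : ℝ) / ((n.minFac : ℝ) - 1)⌉₊ ≤ p) →
      (jacobsthal n : ℝ) ≤ C * (n.primeFactors.card : ℝ) ^ 2) := by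
  refine ⟨fun n hn => Vale.Agent.H4.P013.main n hn, 2, by norm_num, fun n hn h => ?_⟩
  have h2 : jacobsthal n ≤ 2 * n.primeFactors.card := ((Vale.Agent.H4.P013.main n hn).2 h).2
  have hk : 1 ≤ n.primeFactors.card := by
    rw [Nat.succ_le_iff, Finset.card_pos]
    exact Nat.nonempty_primeFactors.mpr (by omega)
  have h3 : (jacobsthal n : ℝ) ≤ 2 * (n.primeFactors.card : ℝ) := by exact_mod_cast h2
  have h4 : (1 : ℝ) ≤ (n.primeFactors.card : ℝ) := by exact_mod_cast hk
  nlinarith

end Vale.Agent.Results.P013.A0_OneSmallPrimeQuadraticForm
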