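import Mathlib
import Vale.Agent.H4.P013.OneSmallPrime

/-!
# P013: Jacobsthal's function when only the least prime factor is small

Hand-in. `jacobsthal n` (defined in `Vale/Agent/H4/P013/Defs.lean`) is the least positive
`m` such that every `m` consecutive integers contain one coprime to `n`. Let `k = ω(n)` be the
number of distinct prime factors of `n ≥ 2`, `q` its least prime factor, `B = k + ⌈k/(q-1)⌉`.
(1) `jacobsthal n ≥ B` for every `n ≥ 2`.
(2) If every prime factor of `n` other than `q` is at least `B`, then `jacobsthal n = B`, and in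
particular `jacobsthal n ≤ 2 ω(n)`.
-/

namespace Vale.Agent.Results.P013.A_OneSmallPrime

open Vale.Agent.H4.P013

theorem result : ∀ n : ℕ, 2 ≤ n →
    n.primeFactors.card + ⌈(n.primeFactors.card : ℝ) / ((n.minFac : ℝ) - 1)⌉₊ ≤ jacobsthal n ∧
    ((∀ p ∈ n.primeFactors, p ≠ n.minFac →
        n.primeFactors.card + ⌈(n.primeFactors.card : ℝ) / ((n.minFac : ℝ) - 1)⌉₊ ≤ p) →
      jacobsthal n
          = n.primeFactors.card + ⌈(n.primeFactors.card : ℝ) / ((n.minFac : ℝ) - 1)⌉₊ ∧
        jacobsthal n ≤ 2 * n.primeFactors.card) :=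
  fun n hn => Vale.Agent.H4.P013.main n hn

end Vale.Agent.Results.P013.A_OneSmallPrime
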